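import Vale.Agent.P215.H788.Final
import Vale.Agent.P215.H788.NotGdelta

/-!
# P215: the good groups form a `G_δ` set, and they are not the groups in the class `SG`
-/

namespace Vale.Agent.Results.P215.GoodNotSG

open Vale.Agent.P215.H788

/-- (1) For every `n` the good groups form a `G_δ` set in the space of groups with `n` marked
generators.
(2) The class `SG`, which is generated by the groups of subexponential growth under subgroups,
quotients, extensions and directed unions, does not have this property.
(3) Hence there is a finitely generated group for which being good and belonging to `SG` are not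
equivalent: the class of good groups is not the class `SG`.
(4) If the finitely generated solvable groups are good (which is a known theorem), there are
continuum many pairwise non-isomorphic good groups with two generators outside the class `SG`. -/
theorem result :
    (∀ n : ℕ, IsGδ {N : MarkedGroup n | Good N.Grp}) ∧
    (¬ IsGδ {N : MarkedGroup 2 | SG N.Grp}) ∧
    (∃ (Γ : Type) (_ : Group Γ), Group.FG Γ ∧ ¬ (Good Γ ↔ SG Γ)) ∧
    ((∀ (Γ : Type) [Group Γ], Group.FG Γ → Group.IsSolvable Γ → Good Γ) →
      ∃ (Γ : (ℕ → Bool) → Type) (_ : ∀ s, Group (Γ s)),
        (∀ s, ∃ g : Fin 2 → Γ s, Subgroup.closure (Set.range g) = ⊤) ∧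
        (∀ s, Good (Γ s)) ∧ (∀ s, ¬ SG (Γ s)) ∧
        ∀ s s', s ≠ s' → IsEmpty (Γ s ≃* Γ s')) :=
  ⟨isGδ_good, not_isGδ_SG, good_ne_SG, exists_good_family⟩

end Vale.Agent.Results.P215.GoodNotSG
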