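import Mathlib
import Vale.Agent.P215.H580.UniformAll

/-!
# P215: goodness of the free group as uniform goodness of a family of groups without common law
-/

namespace Vale.Agent.Results.P215.UniformGoodness

open Vale.Agent.P215.H788 Vale.Agent.P215.H580

/-- (1) The fundamental group of the thickening of a capped grope is free, with one generator for
each double point of the caps.
(2) The free group `F₂` is good if and only if all groups are good, if and only if every thickening
contains a disc with null-homotopic double point loops.
(3) For every family of groups without a common law, `F₂` is good if and only if the groups of the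
family are uniformly good: for each capped grope *finitely many* discs serve all homomorphisms from
its fundamental group to the groups of the family.
(4) In particular this holds for the finite symmetric groups.
(5) If `F₂` is not good, then for some capped grope every finite list of discs serves only groups
which satisfy one and the same nontrivial law, depending on the list.
(6) For every group `Γ` and every nonprincipal ultrafilter on `ℕ` the ultrapower of `Γ` is good if
and only if `Γ` is uniformly good. -/
theorem result :
    (∀ (G : CappedGrope) (w : G.Thickening),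
      Nonempty (FundamentalGroup G.Thickening w ≃* FreeGroup (Fin G.plumbings.length))) ∧
    ((Good (FreeGroup (Fin 2)) ↔ ∀ (Γ : Type) [Group Γ], Good Γ) ∧
      (Good (FreeGroup (Fin 2)) ↔ ∀ G : CappedGrope, ∃ D : FramedDisc G.Thickening G.attach,
        D.Kills (MonoidHom.id (FundamentalGroup G.Thickening G.basePt)))) ∧
    (∀ (ι : Type) (Γ : ι → Type) [∀ i, Group (Γ i)], NoCommonLaw Γ →
      (Good (FreeGroup (Fin 2)) ↔ UniformlyGood Γ)) ∧
    (Good (FreeGroup (Fin 2)) ↔ UniformlyGood fun n : ℕ => Equiv.Perm (Fin n)) ∧
    (¬ Good (FreeGroup (Fin 2)) →
      ∃ G : CappedGrope, ∀ L : List (FramedDisc G.Thickening G.attach),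
        ∃ w : FreeGroup (Fin 2), w ≠ 1 ∧ ∀ (Γ : Type) [Group Γ],
          (∀ φ : FundamentalGroup G.Thickening G.basePt →* Γ, ∃ D ∈ L, D.Kills φ) →
            ∀ x y : Γ, FreeGroup.lift ![x, y] w = 1) ∧
    (∀ (Γ : Type) [Group Γ] (U : Ultrafilter ℕ), (U : Filter ℕ) ≤ Filter.cofinite →
      (Good (Filter.Germ (U : Filter ℕ) Γ) ↔ UniformlyGood fun _ : Unit => Γ)) :=
  ⟨fun G w => ⟨fundamentalGroupEquiv G w⟩, ⟨good_free_iff_all, good_free_iff⟩,
    fun _ Γ _ hΓ => good_iff_uniformlyGood Γ hΓ, good_iff_uniformlyGood _ noCommonLaw_perm,
    exists_law_all, fun _ _ U hU => good_germ_iff U hU⟩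

end Vale.Agent.Results.P215.UniformGoodness
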